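import Mathlib

namespace Vale.Agent.Lib.P249

open Finset

/-- index type of unordered pairs of distinct indices -/
abbrev Pr (n : ℕ) := {z : Sym2 (Fin n) // ¬ z.IsDiag}

/-- the vector of p-th powers of pairwise gaps of a real n-tuple -/
noncomputable def gvec (p : ℝ) (n : ℕ) (a : Fin n → ℝ) : Pr n → ℝ :=
  fun z => Sym2.lift ⟨fun i j => |a i - a j| ^ p, fun i j => by
    show |a i - a j| ^ p = |a j - a i| ^ p
    rw [abs_sub_comm]⟩ z.1

lemma gvec_mk (p : ℝ) (n : ℕ) (a : Fin n → ℝ) (i j : Fin n) (h : ¬ (s(i, j)).IsDiag) :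
    gvec p n a ⟨s(i, j), h⟩ = |a i - a j| ^ p := rfl

lemma gvec_nonneg (p : ℝ) (n : ℕ) (a : Fin n → ℝ) (z : Pr n) : 0 ≤ gvec p n a z := by
  obtain ⟨z, hz⟩ := z
  induction z using Sym2.ind with
  | _ i j => rw [gvec_mk]; positivity

lemma gvec_smul (p : ℝ) (n : ℕ) (c : ℝ) (a : Fin n → ℝ) :
    gvec p n (c • a) = |c| ^ p • gvec p n a := by
  funext z
  obtain ⟨z, hz⟩ := z
  induction z using Sym2.ind with
  | _ i j =>
    simp only [Pi.smul_apply, smul_eq_mul, gvec_mk]
    rw [← mul_sub, abs_mul, Real.mul_rpow (abs_nonneg _) (abs_nonneg _)]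

lemma gvec_rpow_smul (p : ℝ) (hp : 0 < p) (n : ℕ) (w : ℝ) (hw : 0 ≤ w) (a : Fin n → ℝ) :
    gvec p n ((w ^ (1 / p)) • a) = w • gvec p n a := by
  rw [gvec_smul, abs_of_nonneg (Real.rpow_nonneg hw _), ← Real.rpow_mul hw,
    one_div_mul_cancel hp.ne', Real.rpow_one]

lemma gvec_zero (p : ℝ) (hp : 0 < p) (n : ℕ) : gvec p n 0 = 0 := by
  have := gvec_rpow_smul p hp n 0 le_rfl (0 : Fin n → ℝ)
  simpa using this

lemma gvec_neg (p : ℝ) (n : ℕ) (a : Fin n → ℝ) : gvec p n (-a) = gvec p n a := by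
  have := gvec_smul p n (-1) a
  simpa using this

lemma const_of_gvec_eq_zero (p : ℝ) (n : ℕ) (a : Fin n → ℝ)
    (h : gvec p n a = 0) (i j : Fin n) : a i = a j := by
  by_cases hij : i = j
  · rw [hij]
  · have hd : ¬ (s(i, j)).IsDiag := by simpa using hij
    have h1 := congrFun h ⟨s(i, j), hd⟩
    rw [gvec_mk] at h1
    simp only [Pi.zero_apply] at h1
    rw [Real.rpow_eq_zero_iff_of_nonneg (abs_nonneg _)] at h1
    have := abs_eq_zero.mp h1.1
    linarith

lemma continuous_gvec (p : ℝ) (hp : 0 < p) (n : ℕ) (γ : ℝ → Fin n → ℝ) (hγ : Continuous γ) :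
    Continuous fun t => gvec p n (γ t) := by
  refine continuous_pi fun z => ?_
  obtain ⟨z, hz⟩ := z
  induction z using Sym2.ind with
  | _ i j =>
    simp only [gvec_mk]
    have hi : Continuous fun t => γ t i := (continuous_apply i).comp hγ
    have hj : Continuous fun t => γ t j := (continuous_apply j).comp hγ
    exact ((hi.sub hj).abs).rpow_const (fun t => Or.inr hp.le)

/-- dropping a generator with zero value -/
lemma drop_zero (p : ℝ) (n k : ℕ) (b : Fin (k + 1) → Fin n → ℝ) (l0 : Fin (k + 1))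
    (h0 : gvec p n (b l0) = 0) :
    ∑ l, gvec p n (b (l0.succAbove l)) = ∑ l, gvec p n (b l) := by
  rw [Fin.sum_univ_succAbove (fun l => gvec p n (b l)) l0, h0, zero_add]

/-- if a nonnegative reweighting with a zero weight represents a vector, one generator can be dropped -/
lemma reweight_drop (p : ℝ) (hp : 0 < p) (n k : ℕ) (b : Fin (k + 1) → Fin n → ℝ)
    (w : Fin (k + 1) → ℝ) (hw : ∀ l, 0 ≤ w l) (l0 : Fin (k + 1)) (hl0 : w l0 = 0)
    (v : Pr n → ℝ) (hsum : ∑ l, w l • gvec p n (b l) = v) :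
    ∃ b' : Fin k → Fin n → ℝ, ∑ l, gvec p n (b' l) = v := by
  refine ⟨fun l => (w (l0.succAbove l) ^ (1 / p)) • b (l0.succAbove l), ?_⟩
  have h1 := drop_zero p n k (fun l => (w l ^ (1 / p)) • b l) l0
    (by rw [gvec_rpow_smul p hp n _ (hw l0), hl0, zero_smul])
  rw [h1, ← hsum]
  exact Finset.sum_congr rfl fun l _ => gvec_rpow_smul p hp n _ (hw l) _

lemma gvec_eq_zero_of_const (p : ℝ) (hp : 0 < p) (n : ℕ) (a : Fin n → ℝ)
    (h : ∀ i j, a i = a j) : gvec p n a = 0 := by
  funext z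
  obtain ⟨z, hz⟩ := z
  induction z using Sym2.ind with
  | _ i j =>
    rw [gvec_mk, h i j, sub_self, abs_zero, Real.zero_rpow hp.ne']
    rfl

/-- the dependent case: Caratheodory reduction -/
lemma reduce_dep (p : ℝ) (hp : 0 < p) (n k : ℕ) (b : Fin (k + 1) → Fin n → ℝ)
    (hdep : ¬ LinearIndependent ℝ (fun l => gvec p n (b l))) :
    ∃ b' : Fin k → Fin n → ℝ, ∑ l, gvec p n (b' l) = ∑ l, gvec p n (b l) := by
  rw [Fintype.not_linearIndependent_iff] at hdep
  obtain ⟨g, hg, i, hi⟩ := hdep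
  -- wlog some coefficient is positive
  obtain ⟨g, hg, i, hi⟩ : ∃ g : Fin (k + 1) → ℝ, ∑ l, g l • gvec p n (b l) = 0 ∧ ∃ i, 0 < g i := by
    rcases lt_or_gt_of_ne hi with h | h
    · refine ⟨fun l => - g l, ?_, i, by simpa using h⟩
      simp only [neg_smul, Finset.sum_neg_distrib, hg, neg_zero]
    · exact ⟨g, hg, i, h⟩
  obtain ⟨l0, hl0⟩ := Finite.exists_max g
  have hpos : 0 < g l0 := lt_of_lt_of_le hi (hl0 i)
  refine reweight_drop p hp n k b (fun l => 1 - g l / g l0) (fun l => ?_) l0 ?_ _ ?_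
  · have := hl0 l
    have : g l / g l0 ≤ 1 := by rw [div_le_one hpos]; exact this
    linarith
  · simp [div_self hpos.ne']
  · have : ∑ l, (1 - g l / g l0) • gvec p n (b l)
        = ∑ l, gvec p n (b l) - (1 / g l0) • ∑ l, g l • gvec p n (b l) := by
      rw [Finset.smul_sum, ← Finset.sum_sub_distrib]
      refine Finset.sum_congr rfl fun l _ => ?_
      rw [sub_smul, one_smul, smul_smul]
      congr 2
      ring
    rw [this, hg, smul_zero, sub_zero]

/-- the independent case with a full basis: Fenchel-Bunt reduction along a path of generators -/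
lemma reduce_basis (p : ℝ) (hp : 0 < p) (n k : ℕ) (hk : 1 ≤ k) (b : Fin (k + 1) → Fin n → ℝ)
    (hli : LinearIndependent ℝ (fun l => gvec p n (b l)))
    (hcard : Fintype.card (Fin (k + 1)) = Module.finrank ℝ (Pr n → ℝ)) :
    ∃ b' : Fin k → Fin n → ℝ, ∑ l, gvec p n (b' l) = ∑ l, gvec p n (b l) := by
  classical
  set B := basisOfLinearIndependentOfCardEqFinrank hli hcard with hB
  have hBl : ∀ l, B l = gvec p n (b l) := fun l => by
    rw [hB, coe_basisOfLinearIndependentOfCardEqFinrank]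
  let l1 : Fin (k + 1) := ⟨0, by omega⟩
  let l2 : Fin (k + 1) := ⟨1, by omega⟩
  have hl12 : l2 ≠ l1 := by simp [l1, l2, Fin.ext_iff]
  have hne1 : gvec p n (b l1) ≠ 0 := by rw [← hBl]; exact B.ne_zero l1
  have hne2 : gvec p n (b l2) ≠ 0 := by rw [← hBl]; exact B.ne_zero l2
  obtain ⟨i0, j0, hij0⟩ : ∃ i0 j0, b l1 i0 ≠ b l1 j0 := by
    by_contra hcon
    have hcon' : ∀ i j, b l1 i = b l1 j := by
      intro i j
      by_contra hij
      exact hcon ⟨i, j, hij⟩
    exact hne1 (gvec_eq_zero_of_const p hp n _ hcon')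
  set α0 := b l1 i0 - b l1 j0 with hα0
  set β0 := b l2 i0 - b l2 j0 with hβ0
  have hα0ne : α0 ≠ 0 := sub_ne_zero.mpr hij0
  obtain ⟨σ, hσ, hσpos⟩ : ∃ σ : ℝ, (σ = 1 ∨ σ = -1) ∧ 0 ≤ α0 * (σ * β0) := by
    by_cases h : 0 ≤ α0 * β0
    · exact ⟨1, Or.inl rfl, by simpa using h⟩
    · refine ⟨-1, Or.inr rfl, ?_⟩
      have h' := not_le.mp h
      nlinarith
  set γ : ℝ → Fin n → ℝ := fun t => (1 - t) • b l1 + (t * σ) • b l2 with hγdef
  have hγc : Continuous γ := by
    rw [hγdef]
    fun_prop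
  have hγ0 : gvec p n (γ 0) = B l1 := by
    rw [hBl, hγdef]
    simp
  have hγ1 : gvec p n (γ 1) = B l2 := by
    rw [hBl, hγdef]
    simp only [sub_self, zero_smul, zero_add, one_mul]
    rcases hσ with h | h
    · rw [h, one_smul]
    · rw [h, neg_one_smul, gvec_neg]
  have hγne : ∀ t ∈ Set.Icc (0 : ℝ) 1, gvec p n (γ t) ≠ 0 := by
    intro t ht h0
    have hc := const_of_gvec_eq_zero p n _ h0 i0 j0
    rcases lt_or_eq_of_le ht.2 with hlt | heq
    · have h1 : (1 - t) * α0 + t * (σ * β0) = 0 := by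
        have : γ t i0 - γ t j0 = 0 := sub_eq_zero.mpr hc
        rw [hγdef] at this
        simp only [Pi.add_apply, Pi.smul_apply, smul_eq_mul] at this
        rw [hα0, hβ0]
        linarith
      have h2 : (1 - t) * (α0 * α0) + t * (α0 * (σ * β0)) = 0 := by
        have : α0 * ((1 - t) * α0 + t * (σ * β0)) = 0 := by rw [h1, mul_zero]
        linarith
      have h3 : 0 < α0 * α0 := mul_self_pos.mpr hα0ne
      have h4 : 0 < (1 - t) * (α0 * α0) := mul_pos (by linarith) h3
      have h5 : 0 ≤ t * (α0 * (σ * β0)) := mul_nonneg ht.1 hσpos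
      linarith
    · rw [heq, hγ1] at h0
      exact B.ne_zero l2 h0
  set c : ℝ → Fin (k + 1) → ℝ := fun t => B.equivFun (gvec p n (γ t)) with hcdef
  have hcc : Continuous c :=
    (B.equivFun.toLinearMap.continuous_of_finiteDimensional).comp (continuous_gvec p hp n γ hγc)
  have hc0 : c 0 = Pi.single l1 1 := by
    rw [hcdef]
    simp only
    rw [hγ0]
    funext l
    rw [Module.Basis.equivFun_self]
    simp [Pi.single_apply, eq_comm]
  have hc1 : c 1 = Pi.single l2 1 := by
    rw [hcdef]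
    simp only
    rw [hγ1]
    funext l
    rw [Module.Basis.equivFun_self]
    simp [Pi.single_apply, eq_comm]
  let F : Fin (k + 1) → Set ℝ := fun j => {t | ∀ l, c t l ≤ c t j}
  have hFclosed : ∀ j, IsClosed (F j) := fun j => by
    have : F j = ⋂ l, {t | c t l ≤ c t j} := by
      ext t
      simp [F]
    rw [this]
    exact isClosed_iInter fun l =>
      isClosed_le ((continuous_apply l).comp hcc) ((continuous_apply j).comp hcc)
  have hA' : IsClosed (⋃ j : {j : Fin (k + 1) // j ≠ l1}, F j.1) :=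
    isClosed_iUnion_of_finite fun j => hFclosed j.1
  have hpre := isPreconnected_Icc (a := (0 : ℝ)) (b := 1)
  rw [isPreconnected_closed_iff] at hpre
  obtain ⟨t, ht01, htA, htA'⟩ := hpre (F l1) (⋃ j : {j : Fin (k + 1) // j ≠ l1}, F j.1)
    (hFclosed l1) hA'
    (by
      intro t _
      obtain ⟨j, hj⟩ := Finite.exists_max (c t)
      by_cases hjl : j = l1
      · left
        rw [← hjl]
        exact hj
      · right
        exact Set.mem_iUnion.2 ⟨⟨j, hjl⟩, hj⟩)
    (by
      refine ⟨0, ⟨by simp, ?_⟩⟩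
      intro l
      rw [hc0]
      by_cases hl : l = l1
      · rw [hl]
      · simp [hl])
    (by
      refine ⟨1, ⟨by simp, ?_⟩⟩
      refine Set.mem_iUnion.2 ⟨⟨l2, hl12⟩, ?_⟩
      intro l
      rw [hc1]
      by_cases hl : l = l2
      · rw [hl]
      · simp [hl])
  obtain ⟨⟨j, hjl⟩, hj⟩ := Set.mem_iUnion.1 htA'
  have hjj : c t j = c t l1 := le_antisymm (htA j) (hj l1)
  have hrepr : gvec p n (γ t) = ∑ l, c t l • B l := (B.sum_equivFun _).symm
  have hM : 0 < c t l1 := by
    by_contra hM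
    have hM := not_lt.mp hM
    apply hγne t ht01
    funext z
    have h1 : gvec p n (γ t) z ≤ 0 := by
      rw [hrepr, Finset.sum_apply]
      refine Finset.sum_nonpos fun l _ => ?_
      rw [Pi.smul_apply, smul_eq_mul, hBl]
      exact mul_nonpos_of_nonpos_of_nonneg (le_trans (htA l) hM) (gvec_nonneg p n _ z)
    exact le_antisymm h1 (gvec_nonneg p n _ z)
  set M := c t l1 with hMdef
  refine reweight_drop p hp n k (Function.update b l1 (γ t))
    (fun l => if l = l1 then 1 / M else 1 - c t l / M) (fun l => ?_) j ?_ _ ?_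
  · by_cases hl : l = l1
    · simp only [hl, if_true]
      positivity
    · simp only [hl, if_false]
      have : c t l / M ≤ 1 := by
        rw [div_le_one hM]
        exact htA l
      linarith
  · simp only [hjl, if_false]
    rw [hjj, div_self hM.ne', sub_self]
  · have hterm : ∀ l, (if l = l1 then 1 / M else 1 - c t l / M) • gvec p n (Function.update b l1 (γ t) l)
        = (1 - c t l / M) • B l + (if l = l1 then (1 / M) • gvec p n (γ t) else 0) := by
      intro l
      by_cases hl : l = l1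
      · subst hl
        simp only [if_true, Function.update_self]
        rw [← hMdef, div_self hM.ne', sub_self, zero_smul, zero_add]
      · simp only [hl, if_false, add_zero, Function.update_of_ne hl, hBl]
    rw [Finset.sum_congr rfl fun l _ => hterm l, Finset.sum_add_distrib,
      Finset.sum_ite_eq' Finset.univ l1, if_pos (Finset.mem_univ _), hrepr, Finset.smul_sum,
      ← Finset.sum_add_distrib]
    refine Finset.sum_congr rfl fun l _ => ?_
    rw [smul_smul, ← add_smul, hBl]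
    have : 1 - c t l / M + 1 / M * c t l = 1 := by
      field_simp
      ring
    rw [this, one_smul]

lemma pad_one (p : ℝ) (hp : 0 < p) (n k : ℕ) (b : Fin k → Fin n → ℝ) :
    ∃ b' : Fin (k + 1) → Fin n → ℝ, ∑ l, gvec p n (b' l) = ∑ l, gvec p n (b l) := by
  refine ⟨Fin.cons 0 b, ?_⟩
  rw [Fin.sum_univ_succ]
  simp [gvec_zero p hp n]

lemma pad (p : ℝ) (hp : 0 < p) (n k k' : ℕ) (h : k ≤ k') (b : Fin k → Fin n → ℝ) :
    ∃ b' : Fin k' → Fin n → ℝ, ∑ l, gvec p n (b' l) = ∑ l, gvec p n (b l) := by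
  induction k', h using Nat.le_induction with
  | base => exact ⟨b, rfl⟩
  | succ k' hk ih =>
    obtain ⟨b1, h1⟩ := ih
    obtain ⟨b2, h2⟩ := pad_one p hp n k' b1
    exact ⟨b2, h2.trans h1⟩

lemma finrank_Pr (n : ℕ) : Module.finrank ℝ (Pr n → ℝ) = n.choose 2 := by
  rw [Module.finrank_fintype_fun_eq_card, Sym2.card_subtype_not_diag, Fintype.card_fin]

lemma reduce (p : ℝ) (hp : 0 < p) (n k : ℕ) (hk : 1 ≤ k) (hN : n.choose 2 ≤ k + 1)
    (b : Fin (k + 1) → Fin n → ℝ) :
    ∃ b' : Fin k → Fin n → ℝ, ∑ l, gvec p n (b' l) = ∑ l, gvec p n (b l) := by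
  by_cases hli : LinearIndependent ℝ (fun l => gvec p n (b l))
  · have h1 := hli.fintype_card_le_finrank
    rw [finrank_Pr, Fintype.card_fin] at h1
    exact reduce_basis p hp n k hk b hli (by rw [finrank_Pr, Fintype.card_fin]; omega)
  · exact reduce_dep p hp n k b hli

theorem few_generators (p : ℝ) (hp : 0 < p) (n : ℕ) (hn : 3 ≤ n) :
    ∀ (k : ℕ) (b : Fin k → Fin n → ℝ),
      ∃ b' : Fin (n.choose 2 - 1) → Fin n → ℝ, ∑ l, gvec p n (b' l) = ∑ l, gvec p n (b l) := by
  have hN : 3 ≤ n.choose 2 := by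
    calc 3 = Nat.choose 3 2 := by decide
      _ ≤ n.choose 2 := Nat.choose_le_choose 2 hn
  intro k
  induction k with
  | zero =>
    intro b
    exact pad p hp n 0 _ (Nat.zero_le _) b
  | succ k ih =>
    intro b
    by_cases hk : k + 1 ≤ n.choose 2 - 1
    · exact pad p hp n (k + 1) _ hk b
    · obtain ⟨b1, h1⟩ := reduce p hp n k (by omega) (by omega) b
      obtain ⟨b2, h2⟩ := ih b1
      exact ⟨b2, h2.trans h1⟩

theorem sums_version (p : ℝ) (hp : 1 ≤ p) (n : ℕ) (hn : 3 ≤ n) (m : ℕ) (x : Fin n → Fin m → ℝ) :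
    ∃ y : Fin n → Fin (n.choose 2 - 1) → ℝ, ∀ i j,
      ∑ l, |y i l - y j l| ^ p = ∑ k, |x i k - x j k| ^ p := by
  obtain ⟨b', hb'⟩ := few_generators p (by linarith) n hn m (fun k i => x i k)
  refine ⟨fun i l => b' l i, fun i j => ?_⟩
  by_cases hij : i = j
  · subst hij
    simp [Real.zero_rpow (by linarith : p ≠ 0)]
  · have hd : ¬ (s(i, j)).IsDiag := by simpa using hij
    have := congrFun hb' ⟨s(i, j), hd⟩
    simpa [Finset.sum_apply, gvec_mk] using this

theorem piLp_version (p : ENNReal) [Fact (1 ≤ p)] (hp : p ≠ ⊤) (n m : ℕ) (hn : 3 ≤ n)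
    (x : Fin n → PiLp p (fun _ : Fin m => ℝ)) :
    ∃ y : Fin n → PiLp p (fun _ : Fin (n.choose 2 - 1) => ℝ),
      ∀ i j, dist (y i) (y j) = dist (x i) (x j) := by
  have h1 : 1 ≤ p.toReal := by
    have h := Fact.out (p := 1 ≤ p)
    have := ENNReal.toReal_mono hp h
    simpa using this
  obtain ⟨y, hy⟩ := sums_version p.toReal h1 n hn m (fun i k => (x i).ofLp k)
  refine ⟨fun i => WithLp.toLp p (y i), fun i j => ?_⟩
  rw [PiLp.dist_eq_sum (by linarith), PiLp.dist_eq_sum (by linarith)]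
  congr 1
  simp only [Real.dist_eq]
  exact hy i j

end Vale.Agent.Lib.P249
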